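import Crest.Agent.X262.Tree87.T4
import Crest.Agent.X262.Vb.Bas1
import Crest.Agent.X262.End66.Defs
import Crest.Agent.X262.Bub96.Lat
import Crest.Agent.X262.Hb.Sat1
import Crest.Agent.X262.Syz.Eqn2
import Crest.Agent.X262.Fano21.CI

-- ▼ part X262/Eqi18/Div
section

/-!
# Row 262, road B (helper18), EQI part 1: products and division on tree-like configurations

* `tl_mul` : products of sections;  `tl_div` : division by forms without common zero.
-/

set_option autoImplicit false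
set_option linter.unusedSectionVars false

noncomputable section

namespace Crest.Agent.X262.Eqi

open Polynomial Crest.Agent.X262.Bub96 Crest.Agent.X262.Bub96.Tr Crest.Agent.X262.Vb
open Crest.Agent.X262.Tree87
open Crest.Agent.X262.Node22 (scl chr pv_scl chr_ne)

variable {J : Type} [Fintype J] [DecidableEq J] {io : J → Type} [∀ j, Fintype (io j)]
  [∀ j, DecidableEq (io j)] {I : Type} [Fintype I] {E : Type} [Field E] [Algebra ℂ E]

theorem dot_add' (κ κ' d : J → ℕ) : dot (κ + κ') d = dot κ d + dot κ' d := by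
  simp only [dot, Pi.add_apply, add_mul, Finset.sum_add_distrib]

theorem chr_add (c : J → E) (κ κ' : J → ℕ) : chr c (κ + κ') = chr c κ * chr c κ' := by
  simp only [chr, Pi.add_apply, pow_add, Finset.prod_mul_distrib]

section tree

variable {k : Type} [Field k] {t : Tr k J io} {κ κ' : J → ℕ} {s s' : t.Vx → k[X]}

theorem val_mul (h : ∀ v, (s v).natDegree ≤ dot κ (t.vd v))
    (h' : ∀ v, (s' v).natDegree ≤ dot κ' (t.vd v)) (x : t.Pt) :
    val (κ + κ') t (s * s') x = val κ t s x * val κ' t s' x := by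
  rw [val, dot_add']
  exact hv_mul (h _) (h' _) _

theorem isSec_mul (ht : t.OK) (h : t.IsSec κ s) (h' : t.IsSec κ' s') :
    t.IsSec (κ + κ') (s * s') :=
  isSec_of_same ht (fun v => dot_add' κ κ' _ ▸
    natDegree_mul_le.trans (add_le_add (h.natDegree_le v) (h'.natDegree_le v))) fun x y hxy => by
      rw [val_mul h.natDegree_le h'.natDegree_le, val_mul h.natDegree_le h'.natDegree_le,
        hxy.2 _ _ h, hxy.2 _ _ h']

/-- division by binary forms without common zero -/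
theorem poly_div [IsAlgClosed k] {ι : Type} [Fintype ι] {m w : ι → k[X]} {e n : ℕ}
    (hm : ∀ i, (m i).natDegree ≤ e) (h0 : ∀ p, ∃ i, hv e (m i) p ≠ 0)
    (hw : ∀ i, (w i).natDegree ≤ e + n) (h : ∀ i i', m i' * w i = m i * w i') :
    ∃ s : k[X], s.natDegree ≤ n ∧ ∀ i, w i = m i * s := by
  have h1 : Ideal.span (Set.range m) = ⊤ := by
    obtain ⟨g, hg⟩ := (IsPrincipalIdealRing.principal (Ideal.span (Set.range m))).principal
    have hd : ∀ i, g ∣ m i := fun i => by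
      rw [← Ideal.mem_span_singleton, Ideal.span, ← hg]
      exact Ideal.subset_span ⟨i, rfl⟩
    rw [hg]
    refine Ideal.span_singleton_eq_top.mpr (by_contra fun hu => ?_)
    obtain ⟨a, ha⟩ := IsAlgClosed.exists_root g fun h0 => hu (isUnit_iff_degree_eq_zero.mpr h0)
    obtain ⟨i, hi⟩ := h0 (some a)
    exact hi (eval_eq_zero_of_dvd_of_eval_eq_zero (hd i) ha)
  obtain ⟨a, ha⟩ := Ideal.mem_span_range_iff_exists_fun.1 (h1 ▸ Submodule.mem_top : (1 : k[X]) ∈ _)
  have h2 : ∀ i, w i = m i * ∑ l, a l * w l := fun i => by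
    rw [← one_mul (w i), ← ha, Finset.sum_mul, Finset.mul_sum]
    exact Finset.sum_congr rfl fun l _ => by rw [mul_assoc, h i l, mul_left_comm]
  refine ⟨_, ?_, h2⟩
  obtain ⟨i, hi⟩ := h0 none
  by_cases h3 : ∑ l, a l * w l = 0
  · rw [h3]; simp
  · have h4 := hw i
    have h5 : m i ≠ 0 := fun h5 => hi (by simp [h5])
    rw [h2 i, natDegree_mul h5 h3, (hm i).antisymm (le_natDegree_of_ne_zero hi)] at h4
    omega

end tree

variable {d : J → ℕ} {N : ℕ} {z : Cfg io I E} {κ κ' e : J → ℕ} {u u' : I → E}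

theorem td_mem {k : Type} [Field k] [Algebra ℂ k] (D : TD d N z k) (hκ : ∀ j, κ j ≤ N) :
    u ∈ z.V κ ↔ ∃ s, D.t.IsSec κ s ∧ ∀ q, val κ D.t s (D.sp q) = chr (D.c q) κ * D.α (u q) := by
  rw [← D.mem_V hκ, ← Tree87.map_mem_mapS_iff D.α,
    ← mul_mem_sclS_iff fun q => chr_ne (D.c_ne q) κ]
  rfl

theorem td_pv {k : Type} [Field k] [Algebra ℂ k] (D : TD d N z k) {g : MvPolynomial (Vr io) ℂ}
    (hg : MH g e) (q : I) : pv (D.t.ev (D.sp q)) g = chr (D.c q) e * D.α (pv (z.y q) g) := by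
  rw [D.ev_sp, ← Tree87.pv_map]
  exact pv_scl hg _ _

/-- products of sections -/
theorem tl_mul (h : TL d N z) (hκ : ∀ j, κ j + κ' j ≤ N) (hu : u ∈ z.V κ) (hu' : u' ∈ z.V κ') :
    u * u' ∈ z.V (κ + κ') := by
  obtain ⟨k, _, _, _, ⟨D⟩⟩ := h
  obtain ⟨s, h1, h2⟩ := (td_mem D fun j => (Nat.le_add_right _ _).trans (hκ j)).1 hu
  obtain ⟨s', h3, h4⟩ := (td_mem D fun j => (Nat.le_add_left _ _).trans (hκ j)).1 hu'
  refine (td_mem D (κ := κ + κ') hκ).2 ⟨_, isSec_mul D.ok h1 h3, fun q => ?_⟩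
  rw [val_mul h1.natDegree_le h3.natDegree_le, h2, h4, chr_add, Pi.mul_apply, map_mul]
  ring

/-- **division** by forms without common zero -/
theorem tl_div (h : TL d N z) (hκ : ∀ j, 2 * e j + κ j ≤ N) {ι : Type} [Fintype ι]
    {μ : ι → MvPolynomial (Vr io) ℂ} (hμ : ∀ i, MH (μ i) e)
    (h0 : ∀ (k : Type) [Field k] [Algebra ℂ k] (y : Pnt io k), NZ y → ∃ i, pv y (μ i) ≠ 0)
    (hu : ∀ i, (fun q => pv (z.y q) (μ i) * u q) ∈ z.V (e + κ)) : u ∈ z.V κ := by
  obtain ⟨k, _, _, _, ⟨D⟩⟩ := h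
  choose w h1 h2 using fun i => (td_mem D (κ := e + κ) fun j => by
    have := hκ j; simp only [Pi.add_apply]; omega).1 (hu i)
  have h3 := fun i => isSec_sb (hμ i) D.ok
  have h4 : ∀ i q, val (e + κ) D.t (w i) (D.sp q) =
      pv (D.t.ev (D.sp q)) (μ i) * (chr (D.c q) κ * D.α (u q)) := fun i q => by
    rw [h2, td_pv D (hμ i), chr_add, map_mul]
    ring
  have h5 : ∀ i i' v, sb (D.t.vg v) (μ i') * w i v = sb (D.t.vg v) (μ i) * w i' v := by
    intro i i' v
    have h6 := isSec_mul D.ok (h3 i').1 (h1 i)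
    have h7 := isSec_mul D.ok (h3 i).1 (h1 i')
    have h8 := D.eq_zero (κ := e + (e + κ)) (fun j => by
      have := hκ j; simp only [Pi.add_apply]; omega) (h6.add (h7.smul (-1))) fun q => by
      rw [val_add, val_smul, val_mul (h3 i').1.natDegree_le (h1 i).natDegree_le,
        val_mul (h3 i).1.natDegree_le (h1 i').natDegree_le, (h3 i).2, (h3 i').2, h4, h4]
      ring
    have h9 := congrFun h8 v
    simp only [Pi.add_apply, Pi.mul_apply, neg_smul, one_smul, Pi.zero_apply, Pi.neg_apply] at h9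
    exact add_neg_eq_zero.1 h9
  have h6 : ∀ x : D.t.Pt, ∃ i, pv (D.t.ev x) (μ i) ≠ 0 := fun x => h0 k _ (nz_ev D.t D.ok x)
  choose s h7 h8 using fun v => poly_div (n := dot κ (D.t.vd v))
    (fun i => (h3 i).1.natDegree_le v)
    (fun p => (h6 (v, p)).imp fun i hi => ((h3 i).2 (v, p)).trans_ne hi)
    (fun i => dot_add' e κ _ ▸ (h1 i).natDegree_le v) fun i i' => h5 i i' v
  have h9 : ∀ i x, val (e + κ) D.t (w i) x = pv (D.t.ev x) (μ i) * val κ D.t s x := fun i x => by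
    rw [← (h3 i).2, ← val_mul (h3 i).1.natDegree_le h7]
    exact congrArg (fun f => val (e + κ) D.t f x) (funext fun v => h8 v i)
  refine (td_mem D fun j => (Nat.le_add_left _ _).trans (hκ j)).2
    ⟨s, isSec_of_same D.ok h7 fun x y hxy => ?_, fun q => ?_⟩
  · obtain ⟨i, hi⟩ := h6 x
    refine mul_left_cancel₀ hi ?_
    rw [← h9, hxy.2 _ _ (h1 i), h9, same_ev hxy]
  · obtain ⟨i, hi⟩ := h6 (D.sp q)
    exact mul_left_cancel₀ hi ((h9 i _).symm.trans (h4 i q))

end Crest.Agent.X262.Eqi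
end
end

-- ▼ part X262/Eqi18/Main

/-!
# Row 262, road B (helper18), EQI part 2: independence of the equations

* `mon`, `Rel T G κ` : `mon e i * G = ∑ g i a * F a` with multihomogeneous coefficients;
* `rel_of_loc`       : Nullstellensatz;
* `dv_eq`, `cp_eq`, `vir_eqi`, `gw_eqi`, `eqiStmt`.
-/

set_option autoImplicit false
set_option linter.unusedSectionVars false

noncomputable section

namespace Crest.Agent.X262.Eqi

open Crest.Agent.X277 Crest.Agent.X277.BD Crest.Agent.X277.Pst Crest.Agent.X277.BD.Cyc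
open Crest.Agent.X262.Hb Crest.Agent.X262.Vb Crest.Agent.X262.End66
open Crest.Agent.X262.Tree87 (TL MZ weight_cast)
open Crest.Agent.X262.Node22 (mem_Eb jac_apply)
open MvPolynomial

variable {J : Type} [Fintype J] [DecidableEq J] {io : J → Type} [∀ j, Fintype (io j)]
  [∀ j, DecidableEq (io j)] {A A' I : Type} [Fintype A] [Fintype A'] [Fintype I]
  {E : Type} [Field E] [Algebra ℂ E]

/-- monomials in one variable of each factor -/
def mon (e : J → ℕ) (i : (j : J) → io j) : MvPolynomial (Vr io) ℂ := ∏ j, X ⟨j, i j⟩ ^ e j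

theorem mh_mon (e : J → ℕ) (i : (j : J) → io j) : MH (mon e i) e :=
  Syz.hom_prod_pow (k := ℂ) (blk := Sigma.fst) (c := fun j => (⟨j, i j⟩ : Vr io)) (fun _ => rfl) e

theorem pv_mon (y : Pnt io E) (e : J → ℕ) (i : (j : J) → io j) :
    pv y (mon e i) = ∏ j, y j (i j) ^ e j := by simp [pv, mon]

theorem exists_mon {y : Pnt io E} (h : NZ y) (e : J → ℕ) (V : RZ ℂ E) :
    ∃ i, V.v (pv y (mon e i)) = (lw e y).val V := by
  choose i hi using fun j => exists_ln h j V
  exact ⟨i, by simp only [pv_mon, val_lw, map_prod, map_pow, hi]⟩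

theorem exists_mon_ne {y : Pnt io E} (h : NZ y) : ∃ i, ∀ e, pv y (mon e i) ≠ 0 := by
  choose i hi using h
  exact ⟨i, fun e => pv_mon y e i ▸ Finset.prod_ne_zero_iff.2 fun j _ => pow_ne_zero _ (hi j)⟩

/-- the form `G` of multidegree `κ` lies in the saturation of the ideal of `T` -/
structure Rel (T : Tgt io A) (G : MvPolynomial (Vr io) ℂ) (κ : J → ℕ) where
  /-- the exponent -/
  e : J → ℕ
  /-- the coefficients -/
  g : ((j : J) → io j) → A → MvPolynomial (Vr io) ℂ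
  hom : ∀ i a, g i a = 0 ∨ ∃ l, l + T.k a = e + κ ∧ MH (g i a) l
  eq : ∀ i, mon e i * G = ∑ a, g i a * T.F a

variable {T : Tgt io A} {T' : Tgt io A'} {G : MvPolynomial (Vr io) ℂ} {κ : J → ℕ}

theorem exists_coef (hG : MH G κ) (h : G ∈ Ideal.span (Set.range T.F)) :
    ∃ g : A → MvPolynomial (Vr io) ℂ, (∀ a, g a = 0 ∨ ∃ l, l + T.k a = κ ∧ MH (g a) l) ∧
      G = ∑ a, g a * T.F a := by
  classical
  obtain ⟨c, hc⟩ := Ideal.mem_span_range_iff_exists_fun.1 h
  let w : Vr io → J → ℤ := fun v => Pi.single v.1 1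
  refine ⟨fun a => weightedHomogeneousComponent w ((fun j => (κ j : ℤ)) - fun j => (T.k a j : ℤ))
    (c a), fun a => ?_, ?_⟩
  · refine or_iff_not_imp_left.2 fun h0 => ?_
    have h1 : MZ _ _ := weightedHomogeneousComponent_isWeightedHomogeneous (w := w)
      ((fun j => (κ j : ℤ)) - fun j => (T.k a j : ℤ)) (c a)
    have h2 : ∀ j, T.k a j ≤ κ j := fun j => by
      have := h1.nonneg h0 j
      simp only [Pi.sub_apply] at this
      omega
    refine ⟨κ - T.k a, funext fun j => Nat.sub_add_cancel (h2 j), fun s hs => funext fun j => ?_⟩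
    have h3 := congrFun (h1 hs) j
    have h4 := h2 j
    rw [weight_cast] at h3
    simp only [Pi.sub_apply] at h3 ⊢
    omega
  · have h1 := congrArg (weightedHomogeneousComponent w fun j => (κ j : ℤ)) hc
    rw [map_sum, IsWeightedHomogeneous.weightedHomogeneousComponent_same (MZ.of_MH hG)] at h1
    rw [← h1]
    exact Finset.sum_congr rfl fun a _ => Syz.comp_mul w (MZ.of_MH (T.hom a)) _

theorem rel_of_loc (hG : MH G κ) (h : Loc T G) : Nonempty (Rel T G κ) := by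
  have h1 : ∀ i : (j : J) → io j, ∃ n, mon 1 i ^ n ∈
      (Ideal.span (Set.range T.F)).colon {G} := fun i =>
    Fano21.pow_mem_of_vanish fun z hz => by_contra fun h0 => by
      have h2 : ∀ q, pv (fun j i => z ⟨j, i⟩) q = eval z q := fun q => by
        simp [pv]
      obtain ⟨s, h3, h4⟩ := h ℂ (fun j i => z ⟨j, i⟩) (fun j => ⟨i j, fun h3 => h0 (by
        rw [← h2, pv_mon]
        exact Finset.prod_eq_zero (Finset.mem_univ j) (by simp [h3]))⟩) fun a => by
          rw [h2]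
          exact hz _ (Submodule.mem_colon_singleton.2
            (Ideal.mul_mem_right _ _ (Ideal.subset_span ⟨a, rfl⟩)))
      exact h3 ((h2 s).trans (hz s (Submodule.mem_colon_singleton.2 h4)))
  choose n hn using h1
  have h2 : ∀ i : (j : J) → io j, mon (fun _ => ∑ l, n l) i * G ∈ Ideal.span (Set.range T.F) :=
    fun i => by
      obtain ⟨r, hr⟩ := Nat.exists_eq_add_of_le' (Finset.single_le_sum (f := n)
        (fun _ _ => Nat.zero_le _) (Finset.mem_univ i))
      have h3 : mon (fun _ => ∑ l, n l) i = mon 1 i ^ r * mon 1 i ^ n i := by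
        simp only [mon, hr, Pi.one_apply, pow_one, ← pow_add, Finset.prod_pow]
      rw [h3, mul_assoc]
      exact Ideal.mul_mem_left _ _ (Submodule.mem_colon_singleton.1 (hn i))
  choose g h3 h4 using fun i => exists_coef ((mh_mon _ i).mul hG) (h2 i)
  exact ⟨⟨_, g, h3, h4⟩⟩

namespace Rel

variable (R : Rel T G κ) {y : Pnt io E}

theorem pv_eq (y : Pnt io E) (i : (j : J) → io j) :
    pv y (mon R.e i) * pv y G = ∑ a, pv y (R.g i a) * pv y (T.F a) := by
  simpa only [pv, map_mul, map_sum] using congrArg (pv y) (R.eq i)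

include R in
theorem on (hy : NZ y) (h : T.On y) : pv y G = 0 := by
  obtain ⟨i, hi⟩ := exists_mon_ne hy
  refine (mul_eq_zero.1 ((R.pv_eq y i).trans ?_)).resolve_left (hi _)
  exact Finset.sum_eq_zero fun a _ => by rw [h a, mul_zero]

/-- the size estimate -/
theorem le (hy : NZ y) {n : A → E} {n' : E}
    (h : ∀ i, pv y (mon R.e i) * n' = ∑ a, pv y (R.g i a) * n a) {V : RZ ℂ E}
    {γ : V.1.ValueGroup} (hn : ∀ a, V.v (n a) ≤ γ * (lw (T.k a) y).val V) :
    V.v n' ≤ γ * (lw κ y).val V := by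
  obtain ⟨i, hi⟩ := exists_mon hy R.e V
  refine le_of_mul_le_mul_left ?_ (val_pos (lw R.e y) V)
  rw [← hi, ← map_mul, h i, hi]
  refine V.v.map_sum_le fun a _ => ?_
  rcases R.hom i a with h0 | ⟨l, h1, h2⟩
  · simp [h0, pv]
  · rw [map_mul, mul_left_comm, ← val_add, ← lw_add, ← h1, lw_add, val_add, mul_left_comm]
    exact mul_le_mul' (v_pv_le hy h2 V) (hn a)

end Rel

theorem jac_rel {b : A'} (R : Rel T (T'.F b) (T'.k b)) {y : Pnt io E} (hy : NZ y) (h : T.On y)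
    (v : Vr io → E) (i : (j : J) → io j) :
    pv y (mon R.e i) * T'.jac y v b = ∑ a, pv y (R.g i a) * T.jac y v a := by
  simp only [jac_apply, Finset.mul_sum]
  rw [Finset.sum_comm]
  refine Finset.sum_congr rfl fun w _ => ?_
  have h1 := congrArg (fun q => pv y (pderiv w q)) (R.eq i)
  have h2 : aeval (fun v : Vr io => y v.1 v.2) (T'.F b) = 0 := R.on hy h
  have h3 : ∀ a, aeval (fun v : Vr io => y v.1 v.2) (T.F a) = 0 := h
  simp only [map_sum, Derivation.leibniz, smul_eq_mul, pv, map_add, map_mul, h2, h3, zero_mul,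
    add_zero] at h1
  simp only [← mul_assoc, ← Finset.sum_mul]
  exact congrArg (· * v w) h1

variable {z : Cfg io I E}

theorem on_of (R : ∀ b, Rel T (T'.F b) (T'.k b)) (hz : z.NZ) (h : z.On T) : z.On T' :=
  fun q b => (R b).on (hz q) (h q)

theorem nm_sv_le (R : ∀ b, Rel T (T'.F b) (T'.k b)) (hz : z.NZ) (V : RZ ℂ E) :
    nm (z.ea T') V (z.sv T') ≤ nm (z.ea T) V (z.sv T) :=
  nm_le.2 fun x => (R x.1).le (hz x.2) ((R x.1).pv_eq _) fun a =>
    le_nm (z.ea T) V (z.sv T) (a, x.2)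

theorem dv_eq (R : ∀ b, Rel T (T'.F b) (T'.k b)) (R' : ∀ a, Rel T' (T.F a) (T.k a)) (hz : z.NZ) :
    z.dv T = z.dv T' := by
  by_cases h : z.On T
  · rw [Cfg.dv_of_on T h, Cfg.dv_of_on T' (on_of R hz h)]
  · exact ext' fun V => by
      rw [Cfg.val_dv T h, Cfg.val_dv T' fun h' => h (on_of R' hz h'),
        (nm_sv_le R hz V).antisymm (nm_sv_le R' hz V)]

/-- the same tangent vectors -/
def Cor (T : Tgt io A) (T' : Tgt io A') (z : Cfg io I E) (σ : A × I → E) (σ' : A' × I → E) : Prop :=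
  ∀ q, ∃ v, (∀ a, T.jac (z.y q) v a = σ (a, q)) ∧ ∀ b, T'.jac (z.y q) v b = σ' (b, q)

variable {σ : A × I → E} {σ' : A' × I → E} {d : J → ℕ} {N : ℕ}

theorem Cor.symm (h : Cor T T' z σ σ') : Cor T' T z σ' σ := fun q => (h q).imp fun _ => And.symm

theorem Cor.rel (h : Cor T T' z σ σ') {b : A'} (R : Rel T (T'.F b) (T'.k b)) (hz : z.NZ)
    (hO : z.On T) (q : I) (i : (j : J) → io j) :
    pv (z.y q) (mon R.e i) * σ' (b, q) = ∑ a, pv (z.y q) (R.g i a) * σ (a, q) := by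
  obtain ⟨v, h1, h2⟩ := h q
  simp only [← h1, ← h2, jac_rel R (hz q) (hO q)]

theorem Cor.nm_le (h : Cor T T' z σ σ') (R : ∀ b, Rel T (T'.F b) (T'.k b)) (hz : z.NZ)
    (hO : z.On T) (V : RZ ℂ E) : nm (z.ea T') V σ' ≤ nm (z.ea T) V σ :=
  Hb.nm_le.2 fun x => (R x.1).le (hz x.2) (h.rel (R x.1) hz hO x.2) fun a =>
    le_nm (z.ea T) V σ (a, x.2)

theorem Cor.mem (h : Cor T T' z σ σ') (R : ∀ b, Rel T (T'.F b) (T'.k b)) (ht : TL d N z)
    (hN : ∀ b j, 2 * (R b).e j + T'.k b j ≤ N) (hO : z.On T) (hσ : σ ∈ z.Eb T) : σ' ∈ z.Eb T' := by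
  refine mem_Eb.2 ⟨fun b => tl_div ht (hN b) (mh_mon (R b).e)
    (fun k _ _ y hy => (exists_mon_ne hy).imp fun i hi => hi _) fun i => ?_, fun q => ?_⟩
  · have h1 : (fun q => pv (z.y q) (mon (R b).e i) * σ' (b, q)) =
        ∑ a, (fun q => pv (z.y q) ((R b).g i a)) * fun q => σ (a, q) := funext fun q => by
      rw [h.rel (R b) ht.nz hO, Finset.sum_apply]
      rfl
    rw [h1]
    refine Submodule.sum_mem _ fun a _ => ?_
    rcases (R b).hom i a with h0 | ⟨l, h2, h3⟩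
    · simp [h0, pv, ← Pi.zero_def]
    · have h4 : ∀ j, l j + T.k a j ≤ N := fun j => by
        have h5 := congrFun h2 j
        have h6 := hN b j
        simp only [Pi.add_apply] at h5
        omega
      exact h2 ▸ tl_mul ht h4 (ht.pv_mem_V h3 fun j => (Nat.le_add_right _ _).trans (h4 j))
        ((mem_Eb.1 hσ).1 a)
  · obtain ⟨v, -, h2⟩ := h q
    exact ⟨v, funext h2⟩

/-- a linear map which realises the correspondence -/
theorem exists_cor (R : ∀ b, Rel T (T'.F b) (T'.k b)) (hz : z.NZ) (hO : z.On T) :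
    ∃ φ : (A × I → E) →ₗ[E] (A' × I → E), ∀ σ σ', Cor T T' z σ σ' → φ σ = σ' := by
  choose i hi using fun q => exists_mon_ne (hz q)
  refine ⟨LinearMap.pi fun x => ∑ a, ((pv (z.y x.2) (mon (R x.1).e (i x.2)))⁻¹ *
    pv (z.y x.2) ((R x.1).g (i x.2) a)) • LinearMap.proj (a, x.2), fun σ σ' h => funext fun x => ?_⟩
  refine mul_left_cancel₀ (hi x.2 (R x.1).e) ?_
  rw [h.rel (R x.1) hz hO]
  simp only [LinearMap.pi_apply, LinearMap.sum_apply, LinearMap.smul_apply, LinearMap.proj_apply,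
    smul_eq_mul, Finset.mul_sum, mul_assoc, mul_inv_cancel_left₀ (hi x.2 (R x.1).e)]

theorem exists_cor_of_mem (T' : Tgt io A') (hσ : σ ∈ z.Eb T) : ∃ σ', Cor T T' z σ σ' := by
  choose v hv using (mem_Eb.1 hσ).2
  exact ⟨fun x => T'.jac (z.y x.2) (v x.2) x.1,
    fun q => ⟨v q, fun a => congrFun (hv q) a, fun _ => rfl⟩⟩

theorem cp_eq {B : Th} (hB : B.Ax) [Algebra.EssFiniteType ℂ E]
    (R : ∀ b, Rel T (T'.F b) (T'.k b)) (R' : ∀ a, Rel T' (T.F a) (T.k a)) (ht : TL d N z)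
    (hN : ∀ b j, 2 * (R b).e j + T'.k b j ≤ N) (hN' : ∀ a j, 2 * (R' a).e j + T.k a j ≤ N)
    (hO : z.On T) : B.cp (z.ea T) (z.Eb T) = B.cp (z.ea T') (z.Eb T') := by
  have hO' := on_of R ht.nz hO
  obtain ⟨φ, hφ⟩ := exists_cor R ht.nz hO
  have h1 : (z.Eb T).map φ = z.Eb T' := by
    refine le_antisymm ?_ fun σ' hσ => ?_
    · rintro _ ⟨σ, hσ, rfl⟩
      obtain ⟨σ', h⟩ := exists_cor_of_mem T' hσ
      exact hφ σ σ' h ▸ h.mem R ht hN hO hσ
    · obtain ⟨σ, h⟩ := exists_cor_of_mem T hσ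
      exact ⟨σ, h.mem R' ht hN' hO' hσ, hφ σ σ' h.symm⟩
  rw [← h1, hB.cp_iso fun V σ hσ => ?_]
  obtain ⟨σ', h⟩ := exists_cor_of_mem T' hσ
  rw [hφ σ σ' h]
  exact (h.nm_le R ht.nz hO V).antisymm (h.symm.nm_le R' ht.nz hO' V)

theorem exists_rel (h : ∀ b, Loc T (T'.F b)) : ∃ (R : ∀ b, Rel T (T'.F b) (T'.k b)) (N : ℕ),
    ∀ b j, 2 * (R b).e j + T'.k b j ≤ N := by
  have R := fun b => (rel_of_loc (T'.hom b) (h b)).some
  obtain ⟨N, hN⟩ := (Set.finite_range fun x : A' × J => 2 * (R x.1).e x.2 + T'.k x.1 x.2).bddAbove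
  exact ⟨R, N, fun b j => hN ⟨(b, j), rfl⟩⟩


theorem same_dv (h : Same T T') (hz : z.NZ) : z.dv T = z.dv T' := by
  obtain ⟨R, -⟩ := exists_rel h.1
  obtain ⟨R', -⟩ := exists_rel h.2
  exact dv_eq R R' hz

/-- the obstruction spaces of tree-like configurations have the same Chern polynomial -/
theorem same_cp {B : Th} (hB : B.Ax) (h : Same T T') : ∃ N₀ : ℕ, ∀ {I E : Type} [Fintype I]
    [Field E] [Algebra ℂ E] [Algebra.EssFiniteType ℂ E] {z : Cfg io I E} {d : J → ℕ} {N : ℕ},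
    N₀ ≤ N → TL d N z → z.On T → B.cp (z.ea T) (z.Eb T) = B.cp (z.ea T') (z.Eb T') := by
  obtain ⟨R, N₁, h1⟩ := exists_rel h.1
  obtain ⟨R', N₂, h2⟩ := exists_rel h.2
  exact ⟨max N₁ N₂, fun hN ht hO => cp_eq hB R R' ht
    (fun b j => (h1 b j).trans ((le_max_left _ _).trans hN))
    (fun a j => (h2 a j).trans ((le_max_right _ _).trans hN)) hO⟩

theorem vir_eqi {B : Th} (hB : B.Ax) (h : Same T T') : ∃ N : ℕ, ∀ {I K M : Type} [Fintype I]
    [Field K] [Algebra ℂ K] [Algebra.EssFiniteType ℂ K] {d : J → ℕ} (ξ : Dat io d I K),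
    ξ.NrmUp N → ∀ (m : M → I) (Φ : MFam B io M), vir B T ξ.cfg m Φ = vir B T' ξ.cfg m Φ := by
  obtain ⟨N, hN⟩ := same_cp hB h
  refine ⟨N, fun ξ hξ m Φ => finsum_congr fun W => finsum_congr fun hW => ?_⟩
  have hz : ξ.cfg.NZ := fun q => Bub96.nz_pt ξ _
  rw [← same_dv h hz]
  by_cases h0 : Geo.od W (ξ.cfg.dv T) = 0
  · rw [h0, Int.cast_zero, zero_mul, zero_mul]
  · have := Geo.essFT_Rf hW
    rw [trm, trm, exc, exc, Th.cq, Th.cq, ← same_dv h hz, hN le_rfl (Bub96.tl_red hξ _)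
      (Cfg.on_red_of T (lnr_plV W) hz fun h1 => h0 ((Geo.od_eq_zero hW).2 h1))]

/-- **independence of the equations** -/
theorem gw_eqi {B : Th} (hB : B.Ax) (h : Same T T') (d : J → ℕ) {M : Type} [Fintype M]
    (Φ : MFam B io M) : GW B T d Φ = GW B T' d Φ := by
  obtain ⟨N, hN⟩ := vir_eqi hB h
  exact gw_congr (N := N) fun K K₀ I _ _ _ _ _ _ _ ξ m _ _ hξ => hN ξ hξ m Φ

theorem eqiStmt : EqiStmt := fun _ hB _ _ _ _ _ _ _ _ _ _ _ _ _ d _ h _ _ Φ => gw_eqi hB h d Φ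

end Crest.Agent.X262.Eqi
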